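import Vale.Agent.P166.Phase.Threshold
import Vale.Agent.P166.Phase.Example

open MeasureTheory Filter
open scoped Topology

namespace Vale.Agent.Results.P166.AnnealedPhase
open Vale.Agent.P166 Vale.Agent.P166.Phase

theorem result :
    (∀ μ : Measure ℝ, IsProbabilityMeasure μ → IsCompact μ.support →
      ∀ lam : ∀ N : ℕ, Fin N → ℝ, Admissible μ lam →
      ∀ ν : ∀ N : ℕ, Measure (Mat N), (∀ N, IsHaarOrthogonal (ν N)) →
        (∀ β : ℝ, 0 ≤ β → ∀ ε : ℝ, 0 < ε → Tendsto (fun N : ℕ => (ν N).real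
          {U | ε ≤ |pressure β (lam N) U - ∫ V, pressure β (lam N) V ∂ν N|}) atTop (𝓝 0)) ∧
        (∀ β : ℝ, 0 < β → ∀ ε : ℝ, 0 < ε → Tendsto (fun N : ℕ => (ν N).real
          {U | annealed μ β + ε ≤ pressure β (lam N) U}) atTop (𝓝 0)) ∧
        (∀ β : ℝ, edgeG μ < ENNReal.ofReal β → ∃ δ : ℝ, 0 < δ ∧ Tendsto (fun N : ℕ => (ν N).real
          {U | annealed μ β - δ ≤ pressure β (lam N) U}) atTop (𝓝 0)) ∧
        (∀ β : ℝ, 0 < β → ENNReal.ofReal β < edgeG μ → Crit μ β → ∀ ε : ℝ, 0 < ε →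
          Tendsto (fun N : ℕ => (ν N).real {U | ε ≤ |pressure β (lam N) U - annealed μ β|}) atTop (𝓝 0)) ∧
        (∀ g : ℝ, edgeG μ = ENNReal.ofReal g →
          (∀ z, top μ < z → stiel μ z < g →
            4 * (g - stiel μ z) ^ 2 * stielSq μ z ≤ stiel μ z ^ 2 * (2 * g - stiel μ z) ^ 2) →
          ∀ β : ℝ, 0 < β → ((∀ ε : ℝ, 0 < ε → Tendsto (fun N : ℕ => (ν N).real
            {U | ε ≤ |pressure β (lam N) U - annealed μ β|}) atTop (𝓝 0)) ↔ β ≤ g))) ∧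
    ∃ μ : Measure ℝ, IsProbabilityMeasure μ ∧ IsCompact μ.support ∧ edgeG μ = ENNReal.ofReal 2 ∧
      (∀ z, top μ < z → stiel μ z < 2 →
        4 * (2 - stiel μ z) ^ 2 * stielSq μ z ≤ stiel μ z ^ 2 * (2 * 2 - stiel μ z) ^ 2) ∧
      ∃ lam : ∀ N : ℕ, Fin N → ℝ, Admissible μ lam :=
  ⟨fun _μ _hp hμ _lam h _ν hν =>
    ⟨fun _β hβ _ε hε => self_averaging hμ h hν hβ hε,
     fun _β hβ _ε hε => upper_prob hμ h hν hβ hε,
     fun _β hG => gap_prob hμ h hν hG,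
     fun _β hβ hG hc _ε hε => annealed_phase hμ h hν hβ hG hc hε,
     fun _g hG hc _β hβ => threshold hμ h hν hG hc hβ⟩,
   example_law⟩

end Vale.Agent.Results.P166.AnnealedPhase
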