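import Vale.Agent.P166.Haar
import Vale.Agent.P166.Gen.Main
import Vale.Agent.P166.Gen.ReduceP
import Vale.Agent.P166.Gen.Admissible
import Vale.Agent.P166.Gen.SdMain
import Vale.Agent.P166.Gen.Window
import Vale.Agent.P166.Gen.Upper
import Vale.Agent.P166.Gen.Lower
import Vale.Agent.P166.Gen.LowHead
import Vale.Agent.P166.Gen.LowGain
import Vale.Agent.P166.Gen.LowGainStep
import Vale.Agent.P166.Gen.LowKap
import Vale.Agent.P166.Gen.LowKapTrial
import Vale.Agent.P166.Gen.LowRoot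
import Vale.Agent.P166.Gen.Corner
import Vale.Agent.P166.Gen.Frame
import Vale.Agent.P166.Gen.LowSelf
import Vale.Agent.P166.Gen.LowChain

open MeasureTheory Filter Set
open scoped Topology

namespace Vale.Agent.Results.P166.Formula
open Vale.Agent.P166

theorem result :
    (∀ N : ℕ, ∃ H : Measure (Mat N), IsHaarOrthogonal H) ∧
    ∀ μ : Measure ℝ, IsProbabilityMeasure μ → IsCompact μ.support →
      (∃ lam, Admissible μ lam) ∧
      ∀ β : ℝ, 0 ≤ β →
        (Gen.mValues β μ).Nonempty ∧ BddBelow (Gen.mValues β μ) ∧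
        ∀ lam : ∀ N : ℕ, Fin N → ℝ, Admissible μ lam →
        ∀ H : ∀ N : ℕ, Measure (Mat N), (∀ N, IsHaarOrthogonal (H N)) → ∀ ε : ℝ, 0 < ε →
          Tendsto (fun N : ℕ => (H N).real
            {U | ε ≤ |pressure β (lam N) U - sInf (Gen.mValues β μ)|}) atTop (𝓝 0) := by
  have hSelf : Gen.StmtSelfG :=
    Gen.self_gen Gen.stmt_kap Gen.stmt_rootNear Gen.stmt_trial Gen.stmt_gain Gen.stmt_corner Gen.stmt_frame
  have hCh : Gen.StmtChain := Gen.chain_bound Gen.stmt_kap Gen.stmt_frame Gen.stmt_step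
  have hu : Gen.StmtUpperG := Gen.upper_gen Gen.stmt_sd Gen.stmt_window
  have hHead : Gen.StmtHead := Gen.head_bound Gen.stmt_rootNear Gen.stmt_kap Gen.stmt_gain Gen.stmt_corner Gen.stmt_frame
  have hl : Gen.StmtLowerG := Gen.lower_of_parts Gen.stmt_sd Gen.stmt_window Gen.stmt_kap Gen.stmt_trial hSelf hHead hCh
  refine ⟨exists_haar, fun μ hp hc => ⟨Gen.exists_admissible hc, fun β hβ => ?_⟩⟩
  obtain ⟨L, -, hB⟩ := Gen.exists_box hp hc
  obtain ⟨hne, hbd⟩ := Gen.mValues_ok hB hβ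
  exact ⟨hne, hbd, fun lam hlam H hH ε hε =>
    Gen.formula_all hu hl Gen.stmt_labels Gen.stmt_lab_lower Gen.stmt_stage hp hc hβ hH hlam hε⟩

end Vale.Agent.Results.P166.Formula
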