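import Vale.Agent.P166.Phase.FreeID.Beyond

open MeasureTheory Filter
open scoped Topology

namespace Vale.Agent.Results.P166.FreeIDPhase
open Vale.Agent.P166 Vale.Agent.P166.Phase

theorem result :
    ∀ (γ A : ℝ) (ρ : Measure ℝ), IsFiniteMeasure ρ → (∀ᵐ t ∂ρ, t ∈ Set.Icc (-A) A) →
      (∃ μ : Measure ℝ, IsProbabilityMeasure μ ∧ IsCompact μ.support ∧
        (∀ᶠ w : ℝ in atTop, w = 1 / (∫ x, 1 / (w - x) ∂μ) +
          (γ + ∫ t, (∫ x, 1 / (w - x) ∂μ) / (1 - t * ∫ x, 1 / (w - x) ∂μ) ∂ρ)) ∧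
        ∃ lam, Admissible μ lam) ∧
      ∀ μ : Measure ℝ, IsProbabilityMeasure μ → IsCompact μ.support →
        (∀ᶠ w : ℝ in atTop, w = 1 / (∫ x, 1 / (w - x) ∂μ) +
          (γ + ∫ t, (∫ x, 1 / (w - x) ∂μ) / (1 - t * ∫ x, 1 / (w - x) ∂μ) ∂ρ)) →
        ∀ lam : ∀ N : ℕ, Fin N → ℝ, Admissible μ lam →
        ∀ ν : ∀ N : ℕ, Measure (Mat N), (∀ N, IsHaarOrthogonal (ν N)) →
        ∀ β : ℝ, 0 < β →
          (ENNReal.ofReal β < edgeG μ → (∀ᵐ t ∂ρ, -1 ≤ β * t) → ∀ ε : ℝ, 0 < ε →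
            Tendsto (fun N : ℕ => (ν N).real {U | ε ≤ |pressure β (lam N) U -
              (∫ s in (0:ℝ)..β, (γ + ∫ t, s / (1 - t * s) ∂ρ)) / 2|}) atTop (𝓝 0)) ∧
          (∀ β0 : ℝ, 0 < β0 → β0 ≤ β → ENNReal.ofReal β0 < edgeG μ → ∀ ε : ℝ, 0 < ε →
            Tendsto (fun N : ℕ => (ν N).real {U |
              β / β0 * ((∫ s in (0:ℝ)..β0, (γ + ∫ t, s / (1 - t * s) ∂ρ)) / 2 + Real.log 2) - Real.log 2 + ε ≤
                pressure β (lam N) U}) atTop (𝓝 0)) ∧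
          ∀ g : ℝ, edgeG μ = ENNReal.ofReal g → (∀ᵐ t ∂ρ, -1 ≤ g * t) →
            (β ≤ g → ∀ ε : ℝ, 0 < ε →
              Tendsto (fun N : ℕ => (ν N).real {U | ε ≤ |pressure β (lam N) U -
                (∫ s in (0:ℝ)..β, (γ + ∫ t, s / (1 - t * s) ∂ρ)) / 2|}) atTop (𝓝 0)) ∧
            ((∀ ε : ℝ, 0 < ε → Tendsto (fun N : ℕ => (ν N).real
                {U | ε ≤ |pressure β (lam N) U - annealed μ β|}) atTop (𝓝 0)) ↔ β ≤ g) ∧
            ∀ a : ℝ, 0 < a → a < g → g < β → ∀ ε : ℝ, 0 < ε →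
              Tendsto (fun N : ℕ => (ν N).real {U | pressure β (lam N) U ≤
                (∫ s in (0:ℝ)..g, (γ + ∫ t, s / (1 - t * s) ∂ρ)) / 2 +
                  (β - g) * ((∫ s in a..g, (γ + ∫ t, s / (1 - t * s) ∂ρ)) / 2) / (g - a) - ε}) atTop (𝓝 0) := by
  intro γ A ρ hf hA
  have h : Pattern.Signed.Carried ρ (max A 0) := ⟨hf, le_max_right A 0, hA.mono fun _ hx =>
    ⟨(neg_le_neg (le_max_left A 0)).trans hx.1, hx.2.trans (le_max_left A 0)⟩⟩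
  obtain ⟨μ, hp, hμc, heq, hadm, -⟩ := Pattern.Signed.limit_free_id γ h
  refine ⟨⟨μ, hp, hμc, heq.mono fun _ hw => hw.2, hadm⟩, ?_⟩
  intro μ' hp' hμ' heq' lam hl ν hν β hβ
  exact ⟨fun hG hneg _ε hε => FreeID.phase h hμ' heq' hl hν hβ hG hneg hε,
    fun _β0 h0 hle hG _ε hε => FreeID.upper_bound h hμ' heq' hl hν h0 hle hG hε,
    fun _g hG hneg => ⟨(FreeID.phase_edge h hμ' heq' hl hν hG hneg hβ).1,
      (FreeID.phase_edge h hμ' heq' hl hν hG hneg hβ).2,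
      fun _a ha hag hgb _ε hε => FreeID.lower_bound h hμ' heq' hl hν hG hneg ha hag hgb hε⟩⟩

end Vale.Agent.Results.P166.FreeIDPhase
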