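import Vale.Agent.P166.Compare
import Vale.Agent.P166.Soft.Closure
import Vale.Agent.P166.Phase.Convex.Main

open MeasureTheory Filter Set
open scoped Topology

namespace Vale.Agent.Results.P166.LimitExistence
open Vale.Agent.P166 Vale.Agent.P166.Phase

theorem result :
    (∀ N : ℕ, ∃ H : Measure (Mat N), IsHaarOrthogonal H) ∧
    (∀ μ : Measure ℝ, IsProbabilityMeasure μ → IsCompact μ.support →
      ∀ lam lam' : ∀ N : ℕ, Fin N → ℝ, Admissible μ lam → Admissible μ lam' →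
      ∀ H : ∀ N : ℕ, Measure (Mat N), (∀ N, IsHaarOrthogonal (H N)) → ∀ β : ℝ, 0 ≤ β →
        (∀ φ : ℝ → ℝ, Continuous φ → Tendsto (fun N : ℕ =>
          ∫ U, φ (pressure β (lam' N) U) ∂H N - ∫ U, φ (pressure β (lam N) U) ∂H N) atTop (𝓝 0)) ∧
        ∀ p : ℝ, (∀ ε : ℝ, 0 < ε →
            Tendsto (fun N : ℕ => (H N).real {U | ε ≤ |pressure β (lam N) U - p|}) atTop (𝓝 0)) →
          ∀ ε : ℝ, 0 < ε →
            Tendsto (fun N : ℕ => (H N).real {U | ε ≤ |pressure β (lam' N) U - p|}) atTop (𝓝 0)) ∧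
    (∃ ν : Measure ℝ, IsProbabilityMeasure ν ∧ IsCompact ν.support ∧
      ∀ᶠ w : ℝ in atTop, w = 1 / (∫ x, 1 / (w - x) ∂ν) + ∫ x, 1 / (w - x) ∂ν) ∧
    ∀ ν : Measure ℝ, IsProbabilityMeasure ν → IsCompact ν.support →
      (∀ᶠ w : ℝ in atTop, w = 1 / (∫ x, 1 / (w - x) ∂ν) + ∫ x, 1 / (w - x) ∂ν) →
      (∀ φ : ℝ → ℝ, ContinuousOn φ (Icc (-2) 2) → MonotoneOn φ (Icc (-2) 2) → ConvexOn ℝ (Icc (-2) 2) φ →
        IsProbabilityMeasure (ν.map φ) ∧ IsCompact (ν.map φ).support ∧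
        ∀ lam : ∀ N : ℕ, Fin N → ℝ, Admissible (ν.map φ) lam →
        ∀ H : ∀ N : ℕ, Measure (Mat N), (∀ N, IsHaarOrthogonal (H N)) → ∀ β : ℝ, 0 < β →
          (ENNReal.ofReal β < edgeG (ν.map φ) → ∀ ε : ℝ, 0 < ε → Tendsto (fun N : ℕ => (H N).real
            {U | ε ≤ |pressure β (lam N) U - annealed (ν.map φ) β|}) atTop (𝓝 0)) ∧
          ∀ g : ℝ, edgeG (ν.map φ) = ENNReal.ofReal g →
            ((∀ ε : ℝ, 0 < ε → Tendsto (fun N : ℕ => (H N).real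
              {U | ε ≤ |pressure β (lam N) U - annealed (ν.map φ) β|}) atTop (𝓝 0)) ↔ β ≤ g)) ∧
      ∀ φ : ℝ → ℝ,
        (∀ ε : ℝ, 0 < ε → ∃ (α s : ℝ) (q : ℕ) (a c : Fin q → ℝ), 0 ≤ s ∧ (∀ j, 0 ≤ c j ∧ 2 < a j) ∧
          ∀ x ∈ Icc (-2:ℝ) 2, |φ x - (α + s * x + ∑ j, c j / (a j - x))| ≤ ε) →
        (∃ lam, Admissible (ν.map φ) lam) ∧
        ∀ β : ℝ, 0 ≤ β → ∃ p : ℝ, ∀ lam : ∀ N : ℕ, Fin N → ℝ, Admissible (ν.map φ) lam →
          ∀ H : ∀ N : ℕ, Measure (Mat N), (∀ N, IsHaarOrthogonal (H N)) → ∀ ε : ℝ, 0 < ε →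
            Tendsto (fun N : ℕ => (H N).real {U | ε ≤ |pressure β (lam N) U - p|}) atTop (𝓝 0) := by
  refine ⟨exists_haar, fun _μ _hp hμ _l _l' h h' _H hH _β hβ =>
    ⟨fun _φ hφ => phi_diff hμ h h' hβ hH hφ, fun _p hp _ε hε => prob_transfer hμ h h' hβ hH hp hε⟩, ?_,
    fun ν hp hν he => ⟨fun φ hc hm hx => Convex.image_phase hν he hc hm hx,
      fun φ h => Soft.ratlim_limit hν he h⟩⟩
  obtain ⟨ν, hp, hν, -, -, he, -⟩ := Soft.semicircle_good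
  exact ⟨ν, hp, hν, he⟩

end Vale.Agent.Results.P166.LimitExistence
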